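import Vale.Agent.P241GR.A
import Vale.Agent.P251.H.LocCpt
import Vale.Agent.P251.H.Cof.Tri

/-!
# P241G, row A1 and the fields `zero`, `cpt`, `gen` of row A2

Copies of the arguments of `P251/H/PhiM` and `P251/H/LocCpt` for the weaker input class, with all
objects (no flatness).
-/

open CategoryTheory MonoidalCategory Limits ZeroObject

universe v' u u'

namespace Vale.Agent.P241GL

open P251.H P251.H.GS P251.H.GS.StabInput P241GR
open P251.S (IsCpt)

variable {M : Type u} [Category.{0} M] [MonoidalCategory M] [SymmetricCategory M]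
  [MonoidalClosed M] [HasZeroMorphisms M] [HasColimitsOfSize.{0, 0} M] [GS.StabInput M]
  (GG : ObjectProperty M) {C : Type u'} [Category.{v'} C] (Q : M ⥤ C)

variable (M) in
/-- The powers `U^k ⊗ A`. -/
@[reducible] def relG : CoPtRel (GS.HM.proj M) (stab M).coPt where
  pwC k A := pwM k A
  c _ _ := Iso.refl _

section basic

variable [Q.IsLocalization (piW GG)]

include GG in
theorem htpy {X Y : M} {f g : X ⟶ Y} (h : MHtpy f g) : Q.map f = Q.map g := by
  obtain ⟨H, h0, h1⟩ := h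
  have hp : IsIso (Q.map (pr X)) := Localization.inverts Q (piW GG) _
    (piW_of_inverse (pr X) (inc 0 X) (mHtpy_pr_inc X) (MHtpy.of_eq (inc_pr 0 X)))
  have e2 : Q.map (inc 0 X) = Q.map (inc 1 X) := by
    rw [← cancel_mono (Q.map (pr X)), ← Q.map_comp, ← Q.map_comp, inc_pr, inc_pr]
  rw [← h0, ← h1, Q.map_comp, Q.map_comp, e2]

include GG in
theorem compat : (relG M).Compat Q where
  map_eq f g h := htpy GG Q ((GS.HM.proj_map_eq_iff _ _).mp h)
  isIso k A := by
    have h : Q.map ((relG M).tkC k A) = Q.map (tkM k A) := by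
      apply htpy GG Q
      refine (GS.HM.proj_map_eq_iff _ _).mp ?_
      refine ((relG M).q_tkC k A).trans ?_
      refine (Category.id_comp (((stab M).coPt).tk k ((GS.HM.proj M).obj A))).trans ?_
      exact (proj_tkM k A).symm
    rw [h]
    exact Localization.inverts Q (piW GG) _ (piW_tkM GG k A)

/-- The comparison map from stable homotopy classes to morphisms of the localization. -/
noncomputable def phiG (A X : M) : PiM A X → (Q.obj A ⟶ Q.obj X) :=
  (relG M).phi (compat GG Q) A X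

theorem phiG_cl {A X : M} (k : ℕ) (x : pwM k A ⟶ X) :
    Q.map (tkM k A) ≫ phiG GG Q A X (clM k x) = Q.map x := by
  have h := (relG M).phi_cl (compat GG Q) k x (tkM k A) ((proj_tkM k A).trans
    (Category.id_comp ((stab M).coPt.tk k ((GS.HM.proj M).obj A))).symm)
  refine Eq.trans ?_ h
  exact congrArg (fun z => Q.map (tkM k A) ≫ phiG GG Q A X ((stab M).coPt.cl k z))
    (Category.id_comp ((GS.HM.proj M).map x)).symm

theorem phiG_cl_zero {A X : M} (x : A ⟶ X) : phiG GG Q A X (clM 0 x) = Q.map x :=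
  (relG M).phi_cl_zero (compat GG Q) x

theorem phiG_map {A X Y : M} (f : X ⟶ Y) (x : PiM A X) :
    phiG GG Q A Y (mapM A f x) = phiG GG Q A X x ≫ Q.map f :=
  (relG M).phi_map (compat GG Q) f x

theorem phiG_bijective {A : M} (hA : Src GG A) (X : M) : Function.Bijective (phiG GG Q A X) :=
  (relG M).phi_bijective (compat GG Q) (piW GG) A hA X

theorem rep {A : M} (hA : Src GG A) (X : M) (φ : Q.obj A ⟶ Q.obj X) :
    ∃ (k : ℕ) (x : pwM k A ⟶ X), Q.map (tkM k A) ≫ φ = Q.map x := by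
  obtain ⟨z, rfl⟩ := (phiG_bijective GG Q hA X).2 φ
  obtain ⟨k, x, rfl⟩ := clM_surj z
  exact ⟨k, x, phiG_cl GG Q k x⟩

theorem inj {A : M} (hA : Src GG A) (X : M) (x y : A ⟶ X) (h : Q.map x = Q.map y) :
    ∃ k : ℕ, MHtpy (tkM k A ≫ x) (tkM k A ≫ y) := by
  have h1 : clM 0 x = clM (A := A) 0 y := (phiG_bijective GG Q hA X).1
    ((phiG_cl_zero GG Q x).trans (h.trans (phiG_cl_zero GG Q y).symm))
  obtain ⟨m, hm, e⟩ := (CoPt.cl_eq_iff' _ _).1 h1
  refine ⟨m, (GS.HM.proj_map_eq_iff _ _).1 ?_⟩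
  rw [Functor.map_comp, Functor.map_comp, proj_tkM]
  exact e

theorem small {A : M} (hA : Src GG A) (Z : C) : Small.{0} (Q.obj A ⟶ Z) := by
  have : Q.EssSurj := Localization.essSurj Q (piW GG)
  let Y := Q.objPreimage Z
  let e : Q.obj Y ≅ Z := Q.objObjPreimageIso Z
  refine small_of_surjective (f := fun x : PiM A Y => phiG GG Q A Y x ≫ e.hom) ?_
  intro f
  obtain ⟨x, hx⟩ := (phiG_bijective GG Q hA Y).2 (f ≫ e.inv)
  exact ⟨x, by
    change phiG GG Q A Y x ≫ e.hom = f
    rw [hx, Category.assoc, Iso.inv_hom_id, Category.comp_id]⟩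

end basic

variable [IsTest GG]

theorem cofCop (ι : Type) : @CofCat.CofCoproducts M _ _ _ _ (cofCatM (piW GG)) ι _ :=
  letI := cofCatM (piW GG)
  { W_map := fun f hf => GoodW.sigma (W := piW GG) f hf
    Cof_map := fun f hf => HCof.sigma f hf }

variable [hQ : Q.IsLocalization (piW GG)]

include GG Q hQ in
theorem cop : HasCoproducts.{0} C := fun ι =>
  letI := cofCatM (piW GG)
  haveI : Q.IsLocalization (CofCat.W (C := M)) := hQ
  haveI := cofCop GG ι
  CofCat.hasCoproductsOfShape Q ι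

include GG in
theorem presCop (ι : Type) : PreservesColimitsOfShape (Discrete ι) Q :=
  letI := cofCatM (piW GG)
  haveI : Q.IsLocalization (CofCat.W (C := M)) := hQ
  haveI := cofCop GG ι
  CofCat.preservesCoproducts Q ι

theorem frac (X Y : M) (φ : Q.obj X ⟶ Q.obj Y) :
    ∃ (Z : M) (f : X ⟶ Z) (s : Y ⟶ Z), piW GG s ∧ φ ≫ Q.map s = Q.map f := by
  let _ := cofCatM (piW GG)
  have : Q.IsLocalization (CofCat.W (C := M)) := hQ
  obtain ⟨Z, f, s, hs, h⟩ := CofCat.exists_fraction Q φ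
  exact ⟨Z, f, s, hs.w, h⟩

include GG in
theorem isZero_obj {Z : M} (hZ : IsZero Z) : IsZero (Q.obj Z) :=
  letI := cofCatM (piW GG)
  haveI : Q.IsLocalization (CofCat.W (C := M)) := hQ
  CofCat.isZero_map Q hZ

/-- Row A1, given a preadditive structure. -/
theorem a1_of (hp : Nonempty (Preadditive C)) : A1 GG Q where
  pre := hp
  cop := cop GG Q
  htpy h := htpy GG Q h
  rep hA := rep GG Q hA
  inj hA := inj GG Q hA
  frac := frac GG Q
  small hA := small GG Q hA

include GG in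
/-- Field `zero` of row A2. -/
theorem map_zero [HasZeroMorphisms C] (X Y : M) : Q.map (0 : X ⟶ Y) = 0 := by
  have e : (0 : X ⟶ Y) = (0 : X ⟶ (0 : M)) ≫ (0 : (0 : M) ⟶ Y) := zero_comp.symm
  have h2 : Q.map (0 : X ⟶ (0 : M)) = 0 := (isZero_obj GG Q (isZero_zero M)).eq_of_tgt _ _
  rw [e, Q.map_comp, h2, zero_comp]

omit [IsTest GG] in
theorem exists_factor {A : M} (hA : Src GG A) (hF : ∀ k, FinFactor (pwM k A)) {ι : Type}
    (Y : ι → M) (f : Q.obj A ⟶ Q.obj (∐ Y)) :
    ∃ (s : Finset ι) (g : Q.obj A ⟶ Q.obj (∐ (fun i : s => Y i))),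
      g ≫ Q.map (sigmaSub s Y) = f := by
  obtain ⟨z, rfl⟩ := (phiG_bijective GG Q hA _).2 f
  obtain ⟨k, x, rfl⟩ := clM_surj z
  obtain ⟨s, g, hg⟩ := hF k Y x
  refine ⟨s, phiG GG Q A _ (clM k g), ?_⟩
  rw [← phiG_map, mapM_clM, ← hg]
  rfl

theorem finFactor_obj [HasCoproducts.{0} C] {A : M} (hA : Src GG A)
    (hF : ∀ k, FinFactor (pwM k A)) : FinFactor (Q.obj A) := by
  have : Q.EssSurj := Localization.essSurj Q (piW GG)
  refine @finFactor_of_essSurj _ _ _ _ _ Q _ _ (fun {ι} Y f => ?_)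
  have hι := presCop GG Q ι
  obtain ⟨s, g, hg⟩ := exists_factor GG Q hA hF Y (f ≫ sigmaComparison Q Y)
  have hs := presCop GG Q s
  refine ⟨s, g ≫ inv (sigmaComparison Q (fun i : s => Y i)), ?_⟩
  rw [← cancel_mono (sigmaComparison Q Y), ← hg, Category.assoc, Category.assoc,
    sigmaSub_comparison, IsIso.inv_hom_id_assoc]

omit [IsTest GG] hQ in
/-- a factorization through a finite subcoproduct is a finite sum (copy of
`P251.S.exists_sum_of_factor` without the triangulation) -/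
theorem sum_of_factor [Preadditive C] [HasCoproducts.{0} C] {I : Type} {X : I → C} {W : C}
    (s : Finset I) (g : W ⟶ ∐ (fun i : s => X i)) :
    ∃ g' : ∀ i, W ⟶ X i, g ≫ Sigma.desc (fun i : s => Sigma.ι X i) =
      ∑ i ∈ s, g' i ≫ Sigma.ι X i := by
  classical
  have hid : 𝟙 (∐ (fun i : s => X i)) =
      ∑ i : s, P251.S.sproj (fun i : s => X i) i ≫ Sigma.ι (fun i : s => X i) i := by
    apply Sigma.hom_ext
    intro j
    rw [Category.comp_id, Preadditive.comp_sum, Finset.sum_eq_single j]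
    · rw [← Category.assoc, P251.S.sproj, Sigma.ι_desc, dif_pos rfl, eqToHom_refl,
        Category.id_comp]
    · intro i _ hi
      rw [← Category.assoc, P251.S.sproj, Sigma.ι_desc, dif_neg hi.symm, zero_comp]
    · intro h
      exact absurd (Finset.mem_univ j) h
  refine ⟨fun i => if h : i ∈ s then g ≫ P251.S.sproj (fun i : s => X i) ⟨i, h⟩ else 0, ?_⟩
  have hg : g = ∑ i : s, g ≫ P251.S.sproj (fun i : s => X i) i ≫ Sigma.ι (fun i : s => X i) i := by
    rw [← Preadditive.comp_sum, ← hid, Category.comp_id]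
  refine (congrArg (fun z => z ≫ Sigma.desc (fun i : s => Sigma.ι X i)) hg).trans ?_
  rw [Preadditive.sum_comp, ← Finset.sum_coe_sort s]
  refine Finset.sum_congr rfl fun i _ => ?_
  rw [Category.assoc, Category.assoc, Sigma.ι_desc, ← Category.assoc]
  beta_reduce
  rw [dif_pos i.2]

/-- Field `cpt` of row A2. -/
theorem cpt [Preadditive C] [HasCoproducts.{0} C] {A : M} (hA : Src GG A)
    (hF : ∀ k, FinFactor (pwM k A)) : IsCpt (Q.obj A) := by
  intro ι X f
  obtain ⟨s, g, hg⟩ := finFactor_obj GG Q hA hF X f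
  obtain ⟨g', hg'⟩ := sum_of_factor s g
  exact ⟨s, g', hg.symm.trans hg'⟩

/-- Field `gen` of row A2. -/
theorem gen [HasZeroMorphisms C] (X : C) (h : ∀ A, GG A → ∀ f : Q.obj A ⟶ X, f = 0) :
    IsZero X := by
  have : Q.EssSurj := Localization.essSurj Q (piW GG)
  let Y := Q.objPreimage X
  let e : Q.obj Y ≅ X := Q.objObjPreimageIso X
  have h1 : ∀ A : M, GG A → ∀ f : Q.obj A ⟶ Q.obj Y, f = 0 := by
    intro A hA f
    rw [← cancel_mono e.hom, h A hA (f ≫ e.hom), zero_comp]
  have hz : IsZero (Q.obj (0 : M)) := isZero_obj GG Q (isZero_zero _)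
  let p : Y ⟶ 0 := 0
  have hp : piW GG p := by
    rw [piW_iff]
    intro A hA
    have hY := phiG_bijective GG Q (Src.of_test hA) Y
    have h0 := phiG_bijective GG Q (Src.of_test hA) (0 : M)
    constructor
    · intro x y _
      apply hY.1
      rw [h1 A hA (phiG GG Q A Y x), h1 A hA (phiG GG Q A Y y)]
    · intro y
      obtain ⟨x, -⟩ := hY.2 0
      refine ⟨x, ?_⟩
      apply h0.1
      exact hz.eq_of_tgt _ _
  have hp' : IsIso (Q.map p) := Localization.inverts Q (piW GG) p hp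
  exact (hz.of_iso (asIso (Q.map p))).of_iso e.symm

end Vale.Agent.P241GL
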